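import Vale.Agent.P318.H682.GoodOf
import Vale.Agent.P318.H283.PDef
import Vale.Agent.P318.H986.VLoss

/-!
# From the code theorem (`H283.CodeFor`) to a `GoodCode`  (P318, (log n)^c construction)
-/

open Finset

namespace Vale.Agent.P318.H682

open Vale.Agent.P318 Vale.Agent.P318.H937 Vale.Agent.P318.H283

/-- a lossless family from the absolute vector-valued form, after an injection -/
theorem lossless_of_less {Y : Type} [AddCommGroup Y] [Module (ZMod 2) Y] [Fintype Y]
    [DecidableEq Y] {q b D w ℓ : ℕ} (E : Fin q → (Y →ₗ[ZMod 2] V2 b))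
    (hE : ∀ (S : Finset (Fin q)) (J L : Type) [Fintype J] [DecidableEq L],
        Vec.Less (fun z (p : (J → Y) × L) => ((fun i => E z (p.1 i)), p.2)) S (2 ^ w) ℓ)
    (i : V2 b →ₗ[ZMod 2] V2 D) (hi : Function.Injective i) (hq : 40 * ℓ ≤ q) :
    Lossless univ (fun (z : Fin q) x => i (E z x)) (2 ^ w) (1 / 40) := by
  classical
  intro U hU
  have h1 := hE univ Unit Unit (U.image fun y => ((fun _ => y), ())) (by
    rw [card_image_of_injective _ (by intro y y' h; exact congrFun (Prod.mk.inj h).1 ())]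
    exact hU)
  have h2 : (U.image fun y => (((fun _ => y), ()) : (Unit → Y) × Unit)).card = U.card :=
    card_image_of_injective _ (by intro y y' h; exact congrFun (Prod.mk.inj h).1 ())
  have h3 : ∀ z : Fin q, ((U.image fun y => (((fun _ => y), ()) : (Unit → Y) × Unit)).image
      (fun p : (Unit → Y) × Unit => ((fun i => E z (p.1 i)), p.2))).card =
      (U.image fun x => i (E z x)).card := by
    intro z
    rw [image_image]
    have e1 : (U.image fun x => i (E z x)).card = (U.image fun x => E z x).card := by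
      rw [← card_image_of_injective (U.image fun x => E z x) hi, image_image]
      rfl
    have e2 : (U.image ((fun p : (Unit → Y) × Unit => ((fun i => E z (p.1 i)), p.2)) ∘
        fun y => (((fun _ => y), ()) : (Unit → Y) × Unit))).card =
        (U.image fun x => E z x).card := by
      rw [← card_image_of_injective (U.image fun x => E z x)
        (f := fun v : V2 b => (((fun _ => v), ()) : (Unit → V2 b) × Unit))
        (by intro y y' h; exact congrFun (Prod.mk.inj h).1 ()), image_image]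
      rfl
    rw [e1, e2]
  rw [h2, sum_congr rfl fun z _ => h3 z, card_univ, Fintype.card_fin] at h1
  rw [card_univ, Fintype.card_fin]
  have h4 : (q : ℝ) * U.card ≤ ∑ z : Fin q, ((U.image fun x => i (E z x)).card : ℝ) +
      ℓ * U.card := by
    exact_mod_cast h1
  have h5 : (40 : ℝ) * ℓ ≤ q := by exact_mod_cast hq
  have h6 : (0 : ℝ) ≤ U.card := Nat.cast_nonneg _
  nlinarith

theorem code4_of_codeFor (κ a b D w h N d k j W : ℕ) (pc : ℝ) (hj : 1 ≤ j)
    (hb : 2 * w + 2 * j ≤ b) (hab : 2 * b ≤ a) (haD : a ≤ D)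
    (hl : 40 * ((2 * w + 1) * ((κ + 1) * 2 ^ j * (w + 1))) ≤ 2 ^ (2 * j))
    (hpc : ((κ + 1 : ℕ) : ℝ) ≤ pc * (2 ^ (2 * j) : ℕ))
    (hC : CodeFor a D (2 ^ w) h (Fin κ → ZMod 2) N)
    (hW : 20 * ((N * (1 + (2 ^ (2 * j) + 2 ^ (2 * j) * 2 ^ (2 * j))) + 1) * d) ≤ W)
    (hhW : h * W ≤ 2 ^ w) (h2W : 2 * W ≤ 2 ^ w) (hk : k ≤ 2 ^ w) :
    ∃ (V V1 : Submodule (ZMod 2) ((Fin κ → ZMod 2) → ZMod 2)) (Γ : Type)
      (g : Γ → (Fin κ → ZMod 2) → ZMod 2),
      GoodCode (Fin κ → ZMod 2) κ D d k
        ((N * (1 + (2 ^ (2 * j) + 2 ^ (2 * j) * 2 ^ (2 * j))) + 1 +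
          (2 ^ (2 * j) + 2 ^ (2 * j) * 2 ^ (2 * j))) * 2 ^ D) pc V V1 Γ g := by
  classical
  have hcond := H986.exists_vless κ w b j hj hb (Fin κ → ZMod 2) (by simp)
  have hqpos : 0 < 2 ^ (2 * j) := by positivity
  generalize 2 ^ (2 * j) = q at *
  obtain ⟨E, hE, hkill⟩ := hcond
  obtain ⟨i1, hi1⟩ := H986.exists_inj (Y := V2 b) (k := a) (by simp; omega)
  obtain ⟨i2, hi2⟩ := H986.exists_inj (Y := V2 b × V2 b) (k := a) (by
    rw [Module.finrank_prod]; simp; omega)
  obtain ⟨i3, hi3⟩ := H986.exists_inj (Y := V2 a) (k := D) (by simp; omega)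
  have : NeZero q := ⟨hqpos.ne'⟩
  -- the extra maps
  let R : Fin q ⊕ (Fin q × Fin q) → ((Fin κ → ZMod 2) →ₗ[ZMod 2] V2 a) :=
    Sum.elim (fun z => i1.comp (E z)) (fun p => i2.comp ((E p.1).prod (E p.2)))
  obtain ⟨ι, _, T, hT, hex⟩ := hC _ R
  let ν : Fin q → ((Fin κ → ZMod 2) →ₗ[ZMod 2] (Fin D → ZMod 2)) :=
    fun z => i3.comp (i1.comp (E z))
  let P2 : Fin q × Fin q → ((Fin κ → ZMod 2) →ₗ[ZMod 2] (Fin D → ZMod 2)) :=
    fun p => i3.comp (i2.comp ((E p.1).prod (E p.2)))
  let τ : Option ι → ((Fin κ → ZMod 2) →ₗ[ZMod 2] (Fin D → ZMod 2)) :=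
    fun o => o.elim (ν 0) T
  let eq : V2 b ≃ Fin (Fintype.card (V2 b)) := Fintype.equivFin _
  have hcT : Fintype.card (Option ι) ≤ N * (1 + (q + q * q)) + 1 := by
    rw [Fintype.card_option]
    simp only [Fintype.card_sum, Fintype.card_prod, Fintype.card_fin] at hT
    omega
  have main := goodCode_of_exact (X := Fin κ → ZMod 2) (D := D) (T := Option ι) (Z := Fin q)
    (Θ := Fin q) κ d k W (2 ^ w) (Fintype.card (V2 b)) (1 / 40) pc (by simp) τ ν P2
    (fun θ x => eq (E θ x))
    (by
      intro θ z x x' hx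
      have h1 := hi2 (hi3 hx)
      have h2 := Prod.mk.inj h1
      refine ⟨?_, ?_⟩
      · simp only [h2.1]
      · change i3 (i1 (E z x)) = i3 (i1 (E z x'))
        rw [h2.2])
    (by
      have := lossless_of_less E hE (i3.comp i1) (hi3.comp hi1) hl
      exact this)
    (by norm_num)
    (by
      intro x x' hxx
      have h1 : Nat.card {θ : Fin q // eq (E θ x) = eq (E θ x')} ≤ κ + 1 := by
        rw [Nat.card_eq_fintype_card, Fintype.card_subtype]
        refine le_trans (card_le_card ?_) (hkill (x - x') (sub_ne_zero.2 hxx))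
        intro θ hθ
        simp only [mem_filter, mem_univ, true_and] at hθ ⊢
        rw [map_sub, eq.injective hθ, sub_self]
      have h2 : (Nat.card {θ : Fin q // eq (E θ x) = eq (E θ x')} : ℝ) ≤ ((κ + 1 : ℕ) : ℝ) := by
        exact_mod_cast h1
      refine h2.trans (hpc.trans (le_of_eq ?_))
      rw [Nat.card_eq_fintype_card, Fintype.card_fin])
    hk
    (le_trans (Nat.mul_le_mul_left _ (Nat.mul_le_mul_right _ hcT)) hW)
    (by
      intro B hB
      obtain ⟨U, hU, hUT, hUR⟩ := hex W hhW B (fun i => hB (some i))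
      have hν : ∀ z, push (ν z) U = push (ν z) B := by
        intro z
        have e : ∀ C : (Fin κ → ZMod 2) → ZMod 2, push (ν z) C = push i3 (push (R (Sum.inl z)) C) := by
          intro C
          rw [push_push']
          rfl
        rw [e, e, hUR]
      refine ⟨U, hU.trans h2W, ?_, hν, ?_⟩
      · rintro (_ | i)
        · exact hν 0
        · exact hUT i
      · intro p
        have e : ∀ C : (Fin κ → ZMod 2) → ZMod 2,
            push (P2 p) C = push i3 (push (R (Sum.inr p)) C) := by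
          intro C
          rw [push_push']
          rfl
        rw [e, e, hUR])
  refine ⟨_, _, _, _, { main with dim := main.dim.trans ?_ }⟩
  refine Nat.mul_le_mul_right _ ?_
  rw [Fintype.card_fin]
  exact Nat.add_le_add_right hcT _

end Vale.Agent.P318.H682
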