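import Vale.Agent.P318.H937.Defs
import Vale.Agent.P318.H269.Dim
import Vale.Agent.P318.H770.Meas
import Vale.Agent.P318.H272.Hash

/-!
# A good code from an exact family of small views  (P318, (log n)^c construction, section 4)

`τ t` are the views of the code theorem, `ν z` is a lossless family, `P2 (θ, z)` determines the
hash value `hs θ` and `ν z`.  All views have values in `Fin D → ZMod 2` and the code consists of
all functions of the views.
-/

open Finset

namespace Vale.Agent.P318.H682

open Vale.Agent.P318 Vale.Agent.P318.H937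

variable {X : Type} [AddCommGroup X] [Module (ZMod 2) X]

/-- every function on `D` bits has degree at most `D` -/
theorem RM_top (D : ℕ) : H272.RM (Fin D → ZMod 2) D = ⊤ := by
  classical
  rw [eq_top_iff]
  intro v _
  have h : v = ∑ j : Fin D → ZMod 2, v j • fun x => if LinearMap.id (R := ZMod 2) x = j then
      (1 : ZMod 2) else 0 := by
    funext x
    simp [Finset.sum_apply]
  rw [h]
  refine Submodule.sum_mem _ fun j _ => Submodule.smul_mem _ _ ?_
  exact H272.fibre_mem LinearMap.id j

variable {ι : Type} {D : ℕ}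

/-- all functions of a view are in the code -/
theorem comp_mem (L : ι → X →ₗ[ZMod 2] (Fin D → ZMod 2)) (i : ι)
    (f : (Fin D → ZMod 2) → ZMod 2) : (fun x => f (L i x)) ∈ H272.codeSp L D :=
  H272.viewSp_le_codeSp L D i ⟨f, by rw [RM_top]; trivial, rfl⟩

theorem finrank_code_le [Finite X] [Fintype ι] (L : ι → X →ₗ[ZMod 2] (Fin D → ZMod 2)) :
    Module.finrank (ZMod 2) ↥(H272.codeSp L D) ≤ Fintype.card ι * 2 ^ D := by
  unfold H272.codeSp
  refine H269.finrank_iSup_le _ _ fun i => ?_
  calc Module.finrank (ZMod 2) ↥(H272.viewSp (L i) D)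
      ≤ Module.finrank (ZMod 2) ↥(H272.RM (Fin D → ZMod 2) D) := Submodule.finrank_map_le _ _
    _ ≤ Module.finrank (ZMod 2) ((Fin D → ZMod 2) → ZMod 2) := Submodule.finrank_le _
    _ = 2 ^ D := by simp

section pairing

variable [Fintype X]

omit [AddCommGroup X] [Module (ZMod 2) X] in
theorem pair_ind {Y : Type} [DecidableEq Y] (B : X → ZMod 2) (f : X → Y) (η : Y) :
    pair B (fun x => if f x = η then 1 else 0) = push f B η := by
  unfold pair push
  rw [sum_filter]
  refine sum_congr rfl fun x _ => ?_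
  by_cases h : f x = η <;> simp [h]

theorem ne_zero_iff (a : ZMod 2) : a ≠ 0 ↔ a = 1 := by revert a; decide

/-- the pairing with a member of the code depends only on the push-forwards to the views -/
theorem pair_eq_of_push [Fintype ι] (L : ι → X →ₗ[ZMod 2] (Fin D → ZMod 2))
    {B U : X → ZMod 2} (h : ∀ i, push (L i) B = push (L i) U) :
    ∀ v ∈ H272.codeSp L D, pair B v = pair U v := by
  classical
  have key : ∀ B : X → ZMod 2, ∃ P : (X → ZMod 2) →ₗ[ZMod 2] ZMod 2, ∀ v, P v = pair B v := by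
    intro B
    refine ⟨{ toFun := fun v => pair B v, map_add' := ?_, map_smul' := ?_ }, fun v => rfl⟩
    · intro v w
      simp [pair, mul_add, sum_add_distrib]
    · intro a v
      simp only [pair, Pi.smul_apply, smul_eq_mul, RingHom.id_apply, mul_sum]
      exact sum_congr rfl fun x _ => by ring
  obtain ⟨P, hP⟩ := key B
  obtain ⟨Q, hQ⟩ := key U
  have hle : H272.codeSp L D ≤ LinearMap.ker (P - Q) := by
    refine H272.codeSp_induction _ fun i w _ => ?_
    rw [LinearMap.mem_ker, LinearMap.sub_apply, hP, hQ]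
    have e : ∀ C : X → ZMod 2, pair C (fun x => w (L i x)) = H770.pr (push (L i) C) w := by
      intro C
      exact (H770.pr_push (L i) C w).symm
    rw [e, e, h i, sub_self]
  intro v hv
  have := hle hv
  rw [LinearMap.mem_ker, LinearMap.sub_apply, hP, hQ, sub_eq_zero] at this
  exact this

end pairing

section test

variable {T Z : Type}

/-- the view of a test -/
def vw (τ : T → X →ₗ[ZMod 2] (Fin D → ZMod 2)) (ν : Z → X →ₗ[ZMod 2] (Fin D → ZMod 2))
    (w : T × Z × Option (Fin 19)) : X →ₗ[ZMod 2] (Fin D → ZMod 2) :=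
  match w with
  | (t, _, none) => τ t
  | (_, z, some _) => ν z

/-- the index type of the tests -/
abbrev GT (T Z : Type) (D : ℕ) : Type := (T × Z × Option (Fin 19)) × (Fin D → ZMod 2)

/-- the test function -/
def gT (τ : T → X →ₗ[ZMod 2] (Fin D → ZMod 2)) (ν : Z → X →ₗ[ZMod 2] (Fin D → ZMod 2))
    (γ : GT T Z D) (x : X) : ZMod 2 := if vw τ ν γ.1 x = γ.2 then 1 else 0

variable [Fintype X] [Fintype T] [Fintype Z]

theorem card_test (τ : T → X →ₗ[ZMod 2] (Fin D → ZMod 2))
    (ν : Z → X →ₗ[ZMod 2] (Fin D → ZMod 2)) (B : X → ZMod 2) :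
    Nat.card {γ : GT T Z D // pair B (gT τ ν γ) = 1} =
      Fintype.card Z * (∑ t, sz (push (τ t) B)) +
        19 * Fintype.card T * ∑ z, sz (push (ν z) B) := by
  classical
  have h1 : ∀ w : T × Z × Option (Fin 19), Nat.card {η : Fin D → ZMod 2 // pair B (gT τ ν (w, η)) = 1} =
      sz (push (vw τ ν w) B) := by
    intro w
    rw [Nat.card_eq_fintype_card, Fintype.card_subtype]
    unfold sz
    congr 1
    ext η
    simp only [mem_filter, mem_univ, true_and]
    have : pair B (gT τ ν (w, η)) = push (vw τ ν w) B η := pair_ind B _ η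
    rw [this, ne_zero_iff]
  have h2 : Nat.card {γ : GT T Z D // pair B (gT τ ν γ) = 1} =
      ∑ w : T × Z × Option (Fin 19), sz (push (vw τ ν w) B) := by
    rw [← sum_congr rfl fun w _ => h1 w, ← Nat.card_sigma]
    exact Nat.card_congr (Equiv.subtypeProdEquivSigmaSubtype
      (fun (w : T × Z × Option (Fin 19)) (η : Fin D → ZMod 2) => pair B (gT τ ν (w, η)) = 1))
  rw [h2, Fintype.sum_prod_type]
  have h3 : ∀ t : T, ∑ w : Z × Option (Fin 19), sz (push (vw τ ν (t, w)) B) =
      Fintype.card Z * sz (push (τ t) B) + 19 * ∑ z, sz (push (ν z) B) := by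
    intro t
    rw [Fintype.sum_prod_type]
    have h4 : ∀ z : Z, ∑ i : Option (Fin 19), sz (push (vw τ ν (t, z, i)) B) =
        sz (push (τ t) B) + 19 * sz (push (ν z) B) := by
      intro z
      rw [Fintype.sum_option]
      have h5 : ∀ i : Fin 19, sz (push (vw τ ν (t, z, some i)) B) = sz (push (ν z) B) :=
        fun i => rfl
      rw [sum_congr rfl fun i _ => h5 i, sum_const, card_univ, Fintype.card_fin, smul_eq_mul]
      rfl
    rw [sum_congr rfl fun z _ => h4 z, sum_add_distrib, sum_const, card_univ, smul_eq_mul,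
      mul_sum]
  rw [sum_congr rfl fun t _ => h3 t, sum_add_distrib, sum_const, card_univ, smul_eq_mul,
    ← mul_sum]
  ring

theorem card_GT : Nat.card (GT T Z D) = 20 * Fintype.card T * Fintype.card Z * 2 ^ D := by
  rw [Nat.card_eq_fintype_card]
  simp only [Fintype.card_prod, Fintype.card_fin, Fintype.card_pi, ZMod.card, prod_const,
    card_univ, Fintype.card_option]
  ring

end test

section lossless

variable [Fintype X] [DecidableEq X] {Z : Type} [Fintype Z] {Y : Type} [DecidableEq Y] [Fintype Y]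

omit [AddCommGroup X] [Module (ZMod 2) X] in
/-- a lossless family keeps most of a small measure, on average -/
theorem lossless_push (ν : Z → X → Y) {W' : ℕ} {e : ℝ} (h : Lossless univ ν W' e)
    (U : X → ZMod 2) (hU : sz U ≤ W') :
    (1 - 2 * e) * Fintype.card Z * sz U ≤ ∑ z, (sz (push (ν z) U) : ℝ) := by
  classical
  have h1 := h (H770.sup U) hU
  have h2 : ∀ z, 2 * (((H770.sup U).image (ν z)).card : ℝ) ≤ sz U + sz (push (ν z) U) := by
    intro z
    have h3 := H770.two_mul_card_image_le (ν z) (H770.sup U)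
    have h4 := H770.card_iso_le_sz_push (ν z) U
    have h5 : 2 * ((H770.sup U).image (ν z)).card ≤ sz U + sz (push (ν z) U) := by
      have e1 : sz U = (H770.sup U).card := rfl
      have e2 : sz (push (ν z) U) = H770.sz (H770.push (ν z) U) := by
        unfold sz push H770.sz H770.push H770.sup
        congr
      rw [e1, e2]
      have h6 : (H770.sz (H770.push (ν z) U)) = H770.sz (H770.push (ν z) U) := rfl
      refine h3.trans (Nat.add_le_add_left ?_ _)
      convert h4
    exact_mod_cast h5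
  have h6 : ∑ z : Z, 2 * (((H770.sup U).image (ν z)).card : ℝ) ≤
      ∑ z : Z, ((sz U : ℝ) + sz (push (ν z) U)) := sum_le_sum fun z _ => h2 z
  rw [← mul_sum, sum_add_distrib, sum_const, card_univ, nsmul_eq_mul] at h6
  rw [card_univ] at h1
  have e3 : ((H770.sup U).card : ℝ) = sz U := rfl
  rw [e3] at h1
  nlinarith

end lossless

section main

variable {T Z Θ : Type}

/-- all views -/
def allV (τ : T → X →ₗ[ZMod 2] (Fin D → ZMod 2)) (ν : Z → X →ₗ[ZMod 2] (Fin D → ZMod 2))
    (P2 : Θ × Z → X →ₗ[ZMod 2] (Fin D → ZMod 2)) :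
    T ⊕ Z ⊕ (Θ × Z) → X →ₗ[ZMod 2] (Fin D → ZMod 2) := Sum.elim τ (Sum.elim ν P2)

theorem gT_eq_one (τ : T → X →ₗ[ZMod 2] (Fin D → ZMod 2))
    (ν : Z → X →ₗ[ZMod 2] (Fin D → ZMod 2)) (γ : GT T Z D) (x : X) :
    gT τ ν γ x = 1 ↔ vw τ ν γ.1 x = γ.2 := by
  unfold gT
  split_ifs with h
  · simp [h]
  · simp [h]

theorem gT_mem (τ : T → X →ₗ[ZMod 2] (Fin D → ZMod 2))
    (ν : Z → X →ₗ[ZMod 2] (Fin D → ZMod 2)) (P2 : Θ × Z → X →ₗ[ZMod 2] (Fin D → ZMod 2))
    (γ : GT T Z D) : gT τ ν γ ∈ H272.codeSp (allV τ ν P2) D := by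
  obtain ⟨⟨t, z, i⟩, η⟩ := γ
  cases i with
  | none => exact comp_mem (allV τ ν P2) (Sum.inl t) fun a => if a = η then 1 else 0
  | some i =>
    exact comp_mem (allV τ ν P2) (Sum.inr (Sum.inl z)) fun a => if a = η then 1 else 0

theorem dens [Fintype T] [Fintype Z] (τ : T → X →ₗ[ZMod 2] (Fin D → ZMod 2))
    (ν : Z → X →ₗ[ZMod 2] (Fin D → ZMod 2)) (x : X) :
    (Nat.card {γ : GT T Z D // gT τ ν γ x = 1} : ℝ) =
      (1 / 2) ^ D * (Nat.card (GT T Z D) : ℝ) := by
  have h1 : Nat.card {γ : GT T Z D // gT τ ν γ x = 1} =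
      Nat.card (T × Z × Option (Fin 19)) := by
    refine Nat.card_congr
      { toFun := fun γ => γ.1.1
        invFun := fun w => ⟨(w, vw τ ν w x), (gT_eq_one τ ν _ x).2 rfl⟩
        left_inv := ?_
        right_inv := fun w => rfl }
    rintro ⟨⟨w, η⟩, h⟩
    have := (gT_eq_one τ ν _ x).1 h
    simp only [Subtype.mk.injEq, Prod.mk.injEq, true_and]
    exact this
  rw [h1, card_GT]
  have h2 : Nat.card (T × Z × Option (Fin 19)) = 20 * Fintype.card T * Fintype.card Z := by
    rw [Nat.card_eq_fintype_card]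
    simp only [Fintype.card_prod, Fintype.card_fin, Fintype.card_option]
    ring
  rw [h2]
  push_cast
  have h3 : ((1 : ℝ) / 2) ^ D * 2 ^ D = 1 := by
    rw [← mul_pow]; norm_num
  calc (20 * (Fintype.card T : ℝ) * Fintype.card Z) =
        (20 * Fintype.card T * Fintype.card Z) * ((1 / 2) ^ D * 2 ^ D) := by rw [h3, mul_one]
    _ = _ := by ring

/-- the two members of a pair view -/
theorem hash_mem [Fintype Θ] {t : ℕ} (τ : T → X →ₗ[ZMod 2] (Fin D → ZMod 2))
    (ν : Z → X →ₗ[ZMod 2] (Fin D → ZMod 2)) (P2 : Θ × Z → X →ₗ[ZMod 2] (Fin D → ZMod 2))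
    (hs : Θ → X → Fin t)
    (hP2 : ∀ θ z x x', P2 (θ, z) x = P2 (θ, z) x' → hs θ x = hs θ x' ∧ ν z x = ν z x')
    (θ : Θ) (zz : Fin t → X → ZMod 2) (hzz : ∀ j, zz j ∈ H272.codeSp ν D) :
    (fun x => zz (hs θ x) x) ∈ H272.codeSp (allV τ ν P2) D := by
  classical
  have h : (fun x => zz (hs θ x) x) =
      ∑ j, fun x => (if hs θ x = j then 1 else 0) * zz j x := by
    funext x
    rw [Finset.sum_apply]
    simp
  rw [h]
  refine Submodule.sum_mem _ fun j _ => ?_
  have h2 := H272.codeSp_induction (L := ν) (s := D)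
    ((H272.codeSp (allV τ ν P2) D).comap
      ((LinearMap.mul (ZMod 2) (X → ZMod 2)) fun x => if hs θ x = j then 1 else 0)) (by
      intro z w _
      have hf : (fun x => (if hs θ x = j then (1 : ZMod 2) else 0) * w (ν z x)).FactorsThrough
          (P2 (θ, z)) := by
        intro x x' hx
        obtain ⟨h3, h4⟩ := hP2 θ z x x' hx
        simp only [h3, h4]
      have h5 := comp_mem (allV τ ν P2) (Sum.inr (Sum.inr (θ, z)))
        (Function.extend (P2 (θ, z))
          (fun x => (if hs θ x = j then (1 : ZMod 2) else 0) * w (ν z x)) 0)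
      have h6 : (fun x => Function.extend (P2 (θ, z))
          (fun x => (if hs θ x = j then (1 : ZMod 2) else 0) * w (ν z x)) 0
            (allV τ ν P2 (Sum.inr (Sum.inr (θ, z))) x)) =
          fun x => (if hs θ x = j then (1 : ZMod 2) else 0) * w (ν z x) := by
        funext x
        exact hf.extend_apply 0 x
      rw [h6] at h5
      exact h5)
  exact h2 (hzz j)

variable [Fintype X] [DecidableEq X] [Fintype T] [Fintype Z] [Fintype Θ] [Nonempty T]
  [Nonempty Z] [Nonempty Θ]

theorem goodCode_of_exact (κ d k W W' t : ℕ) (e pc : ℝ) (hcard : Fintype.card X = 2 ^ κ)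
    (τ : T → X →ₗ[ZMod 2] (Fin D → ZMod 2)) (ν : Z → X →ₗ[ZMod 2] (Fin D → ZMod 2))
    (P2 : Θ × Z → X →ₗ[ZMod 2] (Fin D → ZMod 2)) (hs : Θ → X → Fin t)
    (hP2 : ∀ θ z x x', P2 (θ, z) x = P2 (θ, z) x' → hs θ x = hs θ x' ∧ ν z x = ν z x')
    (hloss : Lossless univ (fun z x => ν z x) W' e) (he : 40 * e ≤ 1)
    (hcoll : ∀ x x' : X, x ≠ x' →
      (Nat.card {θ : Θ // hs θ x = hs θ x'} : ℝ) ≤ pc * (Nat.card Θ : ℝ))
    (hk : k ≤ W') (hW : 20 * (Fintype.card T * d) ≤ W)
    (hex : ∀ B : X → ZMod 2, (∀ i, sz (push (τ i) B) ≤ W) → ∃ U : X → ZMod 2, sz U ≤ W' ∧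
      (∀ i, push (τ i) U = push (τ i) B) ∧ (∀ z, push (ν z) U = push (ν z) B) ∧
      ∀ p, push (P2 p) U = push (P2 p) B) :
    GoodCode X κ D d k
      ((Fintype.card T + (Fintype.card Z + Fintype.card Θ * Fintype.card Z)) * 2 ^ D) pc
      (H272.codeSp (allV τ ν P2) D) (H272.codeSp ν D) (GT T Z D) (gT τ ν) := by
  classical
  have hTpos : (0 : ℝ) < Fintype.card T := by exact_mod_cast Fintype.card_pos
  have hZpos : (0 : ℝ) < Fintype.card Z := by exact_mod_cast Fintype.card_pos
  have h2D : (0 : ℝ) < 2 ^ D := by positivity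
  -- the energy formula
  have hlam : ∀ B : X → ZMod 2, lam (gT τ ν) B * 2 ^ D * (20 * Fintype.card T * Fintype.card Z) =
      Fintype.card Z * (∑ t, (sz (push (τ t) B) : ℝ)) +
        19 * Fintype.card T * ∑ z, (sz (push (ν z) B) : ℝ) := by
    intro B
    unfold lam
    rw [card_test, card_GT]
    push_cast
    field_simp
  refine
    { card := hcard
      fin := inferInstance
      ne := ⟨((Classical.arbitrary T, Classical.arbitrary Z, none), fun _ => 0)⟩
      trans := fun v hv x => H272.shift_mem_codeSp hv x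
      one := ?_
      test := fun γ => gT_mem τ ν P2 γ
      dens := fun x => dens τ ν x
      exact := ?_
      le := ?_
      indep := ?_
      hash := ⟨Θ, inferInstance, inferInstance, t, hs, hcoll,
        fun θ z hz => hash_mem τ ν P2 hs hP2 θ z hz⟩
      deg := ?_
      dim := ?_ }
  · have : Nonempty (T ⊕ Z ⊕ (Θ × Z)) := ⟨Sum.inl (Classical.arbitrary T)⟩
    exact H272.one_mem_codeSp _ _
  · -- exactness
    intro B hB
    have h1 : ∀ i, sz (push (τ i) B) ≤ W := by
      intro i
      have h2 := hlam B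
      have h3 : (sz (push (τ i) B) : ℝ) ≤ ∑ t, (sz (push (τ t) B) : ℝ) :=
        single_le_sum (f := fun t => (sz (push (τ t) B) : ℝ)) (fun _ _ => Nat.cast_nonneg _)
          (mem_univ i)
      have h4 : (0 : ℝ) ≤ ∑ z, (sz (push (ν z) B) : ℝ) := sum_nonneg fun _ _ => Nat.cast_nonneg _
      have h5 : (Fintype.card Z : ℝ) * sz (push (τ i) B) ≤
          Fintype.card Z * (20 * (Fintype.card T * d)) := by
        calc (Fintype.card Z : ℝ) * sz (push (τ i) B)
            ≤ Fintype.card Z * ∑ t, (sz (push (τ t) B) : ℝ) :=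
              mul_le_mul_of_nonneg_left h3 hZpos.le
          _ ≤ Fintype.card Z * (∑ t, (sz (push (τ t) B) : ℝ)) +
              19 * Fintype.card T * ∑ z, (sz (push (ν z) B) : ℝ) :=
              le_add_of_nonneg_right (by positivity)
          _ = lam (gT τ ν) B * 2 ^ D * (20 * Fintype.card T * Fintype.card Z) := h2.symm
          _ ≤ d * (20 * Fintype.card T * Fintype.card Z) :=
              mul_le_mul_of_nonneg_right hB (by positivity)
          _ = _ := by ring
      have h6 : (sz (push (τ i) B) : ℝ) ≤ 20 * (Fintype.card T * d) :=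
        le_of_mul_le_mul_left h5 hZpos
      have h7 : sz (push (τ i) B) ≤ 20 * (Fintype.card T * d) := by exact_mod_cast h6
      exact h7.trans hW
    obtain ⟨U, hU, hUτ, hUν, hUP⟩ := hex B h1
    refine ⟨U, ?_, ?_⟩
    · refine pair_eq_of_push (allV τ ν P2) ?_
      rintro (i | i | i)
      · exact (hUτ i).symm
      · exact (hUν i).symm
      · exact (hUP i).symm
    · have h2 : lam (gT τ ν) B * 2 ^ D * (20 * Fintype.card T * Fintype.card Z) =
          lam (gT τ ν) U * 2 ^ D * (20 * Fintype.card T * Fintype.card Z) := by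
        rw [hlam B, hlam U]
        simp only [hUτ, hUν]
      have h3 := lossless_push (fun z x => ν z x) hloss U hU
      have h4 : (0 : ℝ) ≤ ∑ t, (sz (push (τ t) U) : ℝ) := sum_nonneg fun _ _ => Nat.cast_nonneg _
      have h5 := hlam U
      have hpos : (0 : ℝ) < 20 * Fintype.card T * Fintype.card Z := by positivity
      refine le_of_mul_le_mul_right ?_ hpos
      rw [h2, h5]
      have h6 : (19 : ℝ) * Fintype.card T * ((1 - 2 * e) * Fintype.card Z * sz U) ≤
          19 * Fintype.card T * ∑ z, (sz (push (ν z) U) : ℝ) :=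
        mul_le_mul_of_nonneg_left h3 (by positivity)
      have h7 : (9 / 10 : ℝ) * sz U * (20 * Fintype.card T * Fintype.card Z) ≤
          19 * Fintype.card T * ((1 - 2 * e) * Fintype.card Z * sz U) := by
        have h8 : (0 : ℝ) ≤ Fintype.card T * Fintype.card Z * sz U := by positivity
        nlinarith
      have h9 : (0 : ℝ) ≤ Fintype.card Z * ∑ t, (sz (push (τ t) U) : ℝ) := by positivity
      linarith
  · refine H272.codeSp_induction _ fun z w _ => ?_
    exact comp_mem (allV τ ν P2) (Sum.inr (Sum.inl z)) w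
  · -- independence
    intro U hU hUk
    have h1 := lossless_push (fun z x => ν z x) hloss U (hUk.trans hk)
    have hsz : (0 : ℝ) < sz U := by
      have : 0 < sz U := Nat.pos_of_ne_zero fun h0 => hU (H770.sz_eq_zero.1 h0)
      exact_mod_cast this
    have hex' : ∃ z, sz (push (ν z) U) ≠ 0 := by
      by_contra hcon
      push Not at hcon
      have h2 : ∑ z, (sz (push (ν z) U) : ℝ) = 0 :=
        sum_eq_zero fun z _ => by rw [hcon z]; simp
      have h3 : (0 : ℝ) < (1 - 2 * e) * Fintype.card Z * sz U := by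
        have : (0 : ℝ) < 1 - 2 * e := by linarith
        positivity
      have h4 : (1 - 2 * e) * Fintype.card Z * sz U ≤ (0 : ℝ) := by
        rw [← h2]; exact h1
      linarith
    obtain ⟨z, hz⟩ := hex'
    have h2 : (univ.filter fun a => push (ν z) U a ≠ 0).Nonempty :=
      card_pos.1 (Nat.pos_of_ne_zero hz)
    obtain ⟨a, ha⟩ := h2
    refine ⟨fun x => if ν z x = a then 1 else 0, comp_mem ν z fun b => if b = a then 1 else 0, ?_⟩
    rw [pair_ind]
    exact (ne_zero_iff _).1 (mem_filter.1 ha).2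
  · intro v hv h0
    have := H272.codeSp_min_dist (allV τ ν P2) D hv h0
    rw [hcard] at this
    have e1 : sz v = (univ.filter fun y => v y ≠ 0).card := by
      unfold sz
      congr
    rw [e1]
    exact this
  · have := finrank_code_le (allV τ ν P2)
    simpa only [Fintype.card_sum, Fintype.card_prod] using this

end main

end Vale.Agent.P318.H682
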